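import Mathlib

/-!
# Conjugacy classes of a finite simple group grow

`W t j`: the products of at most `j` conjugates of `t` and `t⁻¹`. In a finite simple group
`W t j` is everything for `j ≥ (number of classes) - 1`.
-/

namespace Vale.Agent.P318.R2.H402

variable {T : Type*} [Group T]

/-- products of at most `j` conjugates of `t` and `t⁻¹` -/
def W (t : T) (j : ℕ) : Set T :=
  {x | ∃ L : List T, L.length ≤ j ∧ (∀ y ∈ L, ∃ g, y = g * t * g⁻¹ ∨ y = g * t⁻¹ * g⁻¹) ∧
    L.prod = x}

lemma one_mem_W (t : T) (j : ℕ) : 1 ∈ W t j := ⟨[], by simp, by simp, by simp⟩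

lemma W_mono (t : T) {i j : ℕ} (h : i ≤ j) : W t i ⊆ W t j := by
  rintro x ⟨L, h1, h2, h3⟩
  exact ⟨L, h1.trans h, h2, h3⟩

lemma mul_mem_W {t : T} {i j : ℕ} {x y : T} (hx : x ∈ W t i) (hy : y ∈ W t j) :
    x * y ∈ W t (i + j) := by
  obtain ⟨L, h1, h2, h3⟩ := hx
  obtain ⟨M, k1, k2, k3⟩ := hy
  refine ⟨L ++ M, by rw [List.length_append]; omega, ?_, by rw [List.prod_append, h3, k3]⟩
  intro z hz
  rcases List.mem_append.1 hz with h | h
  · exact h2 z h
  · exact k2 z h

lemma conj_mem_W {t : T} {j : ℕ} (g : T) {x : T} (hx : x ∈ W t j) : g * x * g⁻¹ ∈ W t j := by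
  obtain ⟨L, h1, h2, h3⟩ := hx
  refine ⟨L.map (MulAut.conj g), by simpa using h1, ?_, ?_⟩
  · intro y hy
    obtain ⟨z, hz, rfl⟩ := List.mem_map.1 hy
    obtain ⟨a, h | h⟩ := h2 z hz
    · exact ⟨g * a, Or.inl (by rw [h, MulAut.conj_apply]; group)⟩
    · exact ⟨g * a, Or.inr (by rw [h, MulAut.conj_apply]; group)⟩
  · rw [← h3]
    exact (map_list_prod (MulAut.conj g) L).symm

lemma inv_mem_W {t : T} {j : ℕ} {x : T} (hx : x ∈ W t j) : x⁻¹ ∈ W t j := by
  obtain ⟨L, h1, h2, h3⟩ := hx
  refine ⟨(L.map (·⁻¹)).reverse, by simpa using h1, ?_, ?_⟩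
  · intro y hy
    rw [List.mem_reverse] at hy
    obtain ⟨z, hz, rfl⟩ := List.mem_map.1 hy
    obtain ⟨a, h | h⟩ := h2 z hz
    · exact ⟨a, Or.inr (by rw [h]; group)⟩
    · exact ⟨a, Or.inl (by rw [h]; group)⟩
  · rw [← h3, List.prod_inv_reverse]

/-- the subgroup generated by the conjugates of `t` -/
def WK (t : T) : Subgroup T where
  carrier := {x | ∃ j, x ∈ W t j}
  one_mem' := ⟨0, one_mem_W t 0⟩
  mul_mem' := by
    rintro x y ⟨i, hi⟩ ⟨j, hj⟩
    exact ⟨i + j, mul_mem_W hi hj⟩
  inv_mem' := by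
    rintro x ⟨i, hi⟩
    exact ⟨i, inv_mem_W hi⟩

instance (t : T) : (WK t).Normal :=
  ⟨fun _ hx g => by
    obtain ⟨i, hi⟩ := hx
    exact ⟨i, conj_mem_W g hi⟩⟩

lemma self_mem_W (t : T) : t ∈ W t 1 := ⟨[t], by simp, by
  intro y hy
  rw [List.mem_singleton] at hy
  exact ⟨1, Or.inl (by rw [hy]; group)⟩, by simp⟩

/-- no growth in one step means no growth at all -/
lemma W_stable {t : T} {j : ℕ} (h : W t (j + 1) ⊆ W t j) (i : ℕ) : W t i ⊆ W t j := by
  have key : ∀ i, W t (j + i) ⊆ W t j := by
    intro i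
    induction i with
    | zero => exact fun x hx => hx
    | succ i ih =>
      rintro x ⟨L, h1, h2, h3⟩
      cases L with
      | nil =>
        rw [List.prod_nil] at h3
        rw [← h3]
        exact one_mem_W t j
      | cons a L =>
        have h4 : L.prod ∈ W t (j + i) := by
          refine ⟨L, ?_, fun y hy => h2 y (List.mem_cons_of_mem _ hy), rfl⟩
          rw [List.length_cons] at h1
          omega
        obtain ⟨M, m1, m2, m3⟩ := ih h4
        apply h
        refine ⟨a :: M, by rw [List.length_cons]; omega, ?_, by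
          rw [List.prod_cons, m3, ← List.prod_cons, h3]⟩
        intro y hy
        rcases List.mem_cons.1 hy with h5 | h5
        · exact h2 y (by rw [h5]; exact List.mem_cons_self)
        · exact m2 y h5
  exact (W_mono t (Nat.le_add_left i j)).trans (key i)

/-- **Every element is a product of few conjugates.** -/
theorem mem_W [Finite T] [IsSimpleGroup T] {t : T} (ht : t ≠ 1) (x : T) :
    x ∈ W t (Nat.card (ConjClasses T) - 1) := by
  classical
  have hfin : Finite (ConjClasses T) := inferInstance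
  have htop : WK t = ⊤ := by
    rcases IsSimpleGroup.eq_bot_or_eq_top_of_normal (WK t) inferInstance with h | h
    · exfalso
      have : t ∈ WK t := ⟨1, self_mem_W t⟩
      rw [h, Subgroup.mem_bot] at this
      exact ht this
    · exact h
  -- the number of classes
  have hcl : ∀ j, W t j = Set.univ ∨ j + 1 ≤ (ConjClasses.mk '' W t j).ncard := by
    intro j
    induction j with
    | zero =>
      right
      have : (ConjClasses.mk '' W t 0).Nonempty := ⟨_, 1, one_mem_W t 0, rfl⟩
      have h0 := (Set.ncard_pos (Set.toFinite _)).2 this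
      omega
    | succ j ih =>
      rcases ih with h | h
      · left
        refine Set.eq_univ_of_univ_subset ?_
        rw [← h]
        exact W_mono t (Nat.le_succ j)
      · by_cases hst : W t (j + 1) ⊆ W t j
        · left
          refine Set.eq_univ_of_forall fun y => ?_
          have hy : y ∈ WK t := by rw [htop]; exact Subgroup.mem_top y
          obtain ⟨i, hi⟩ := hy
          exact W_mono t (Nat.le_succ j) (W_stable hst i hi)
        · right
          obtain ⟨y, hy1, hy2⟩ := Set.not_subset.1 hst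
          have hss : ConjClasses.mk '' W t j ⊂ ConjClasses.mk '' W t (j + 1) := by
            refine ⟨Set.image_mono (W_mono t (Nat.le_succ j)), fun hcon => ?_⟩
            obtain ⟨z, hz1, hz2⟩ := hcon ⟨y, hy1, rfl⟩
            rw [ConjClasses.mk_eq_mk_iff_isConj, isConj_iff] at hz2
            obtain ⟨g, hg⟩ := hz2
            exact hy2 (hg ▸ conj_mem_W g hz1)
          have := Set.ncard_lt_ncard hss (Set.toFinite _)
          omega
  have hpos : 0 < Nat.card (ConjClasses T) := by
    have : Nonempty (ConjClasses T) := ⟨ConjClasses.mk 1⟩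
    exact Nat.card_pos
  rcases hcl (Nat.card (ConjClasses T) - 1) with h | h
  · rw [h]; exact Set.mem_univ x
  · have h1 : (ConjClasses.mk '' W t (Nat.card (ConjClasses T) - 1)) = Set.univ := by
      rw [Set.eq_univ_iff_ncard]
      apply le_antisymm
      · rw [← Set.ncard_univ]
        exact Set.ncard_le_ncard (Set.subset_univ _) (Set.toFinite _)
      · omega
    have h2 : ConjClasses.mk x ∈ ConjClasses.mk '' W t (Nat.card (ConjClasses T) - 1) := by
      rw [h1]; exact Set.mem_univ _
    obtain ⟨z, hz1, hz2⟩ := h2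
    rw [ConjClasses.mk_eq_mk_iff_isConj, isConj_iff] at hz2
    obtain ⟨g, hg⟩ := hz2
    exact hg ▸ conj_mem_W g hz1

/-- a conjugation invariant length grows at most linearly along `W` -/
theorem growth_of_mem {f : T → ℝ} (h1 : f 1 = 0) (hm : ∀ x y, f (x * y) ≤ f x + f y)
    (hi : ∀ x, f x⁻¹ = f x) (hcj : ∀ x y, f (x * y * x⁻¹) = f y) {t x : T} {j : ℕ}
    (h0 : 0 ≤ f t) (hx : x ∈ W t j) : f x ≤ (j : ℝ) * f t := by
  obtain ⟨L, l1, l2, l3⟩ := hx
  have key : ∀ L : List T, (∀ y ∈ L, ∃ g, y = g * t * g⁻¹ ∨ y = g * t⁻¹ * g⁻¹) →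
      f L.prod ≤ (L.length : ℝ) * f t := by
    intro L
    induction L with
    | nil => intro _; simp [h1]
    | cons a L ih =>
      intro h
      have h2 := ih fun y hy => h y (List.mem_cons_of_mem _ hy)
      have h3 : f a = f t := by
        obtain ⟨g, h4 | h4⟩ := h a List.mem_cons_self
        · rw [h4, hcj]
        · rw [h4, hcj, hi]
      rw [List.prod_cons, List.length_cons]
      push_cast
      have := hm a L.prod
      linarith
  rw [← l3]
  refine (key L l2).trans ?_
  have : (L.length : ℝ) ≤ j := by exact_mod_cast l1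
  exact mul_le_mul_of_nonneg_right this h0

/-- **Growth of a conjugation invariant length on a finite simple group.** -/
theorem growth [Finite T] [IsSimpleGroup T] {f : T → ℝ} (h0 : ∀ x, 0 ≤ f x) (h1 : f 1 = 0)
    (hm : ∀ x y, f (x * y) ≤ f x + f y) (hi : ∀ x, f x⁻¹ = f x)
    (hcj : ∀ x y, f (x * y * x⁻¹) = f y) {t : T} (ht : t ≠ 1) (x : T) :
    f x ≤ ((Nat.card (ConjClasses T) : ℝ) - 1) * f t := by
  have h := growth_of_mem h1 hm hi hcj (h0 t) (mem_W ht x)
  have hpos : 0 < Nat.card (ConjClasses T) := by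
    have : Nonempty (ConjClasses T) := ⟨ConjClasses.mk 1⟩
    exact Nat.card_pos
  rwa [Nat.cast_sub hpos, Nat.cast_one] at h

end Vale.Agent.P318.R2.H402
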