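import Vale.Agent.P318.H867.Cut

/-!
# Cuts of a finite group: subgroups and preimages of cuts of an abelian quotient
-/

set_option linter.unusedSectionVars false

open Finset

namespace Vale.Agent.P318.R2.H402

open Vale.Agent.P318.H867

variable {G : Type*} [Group G] [Fintype G]

section Quot

variable {Γ : Type*} [AddCommGroup Γ] [Fintype Γ] [DecidableEq Γ]

/-- sums over a group of a function of the class -/
lemma sum_coset_gen (π : G → Γ) (c : G → ℝ) (F : Γ → ℝ) :
    ∑ g, c g * F (π g) = ∑ z, (∑ g with π g = z, c g) * F z := by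
  rw [← Finset.sum_fiberwise univ π]
  refine sum_congr rfl fun z _ => ?_
  rw [sum_mul]
  refine sum_congr rfl fun g hg => ?_
  rw [(mem_filter.1 hg).2]

/-- all fibres have the same number of elements -/
lemma card_fiber (π : G → Γ) (hπ : ∀ x y, π (x * y) = π x + π y)
    (hsurj : Function.Surjective π) (z : Γ) :
    (univ.filter fun g => π g = z).card * Fintype.card Γ = Fintype.card G := by
  classical
  have h0 : ∀ z : Γ, (univ.filter fun g => π g = z).card = (univ.filter fun g => π g = 0).card := by
    intro z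
    obtain ⟨a, ha⟩ := hsurj z
    refine (card_bij (fun g _ => a * g) ?_ ?_ ?_).symm
    · intro g hg
      simp only [mem_filter, mem_univ, true_and] at hg ⊢
      rw [hπ, ha, hg, add_zero]
    · intro g _ g' _ h
      exact mul_left_cancel h
    · intro g hg
      simp only [mem_filter, mem_univ, true_and] at hg
      refine ⟨a⁻¹ * g, ?_, by simp⟩
      simp only [mem_filter, mem_univ, true_and]
      have h1 : π (a * (a⁻¹ * g)) = π a + π (a⁻¹ * g) := hπ _ _
      rw [mul_inv_cancel_left, hg, ha] at h1
      have h2 := h1.symm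
      rwa [add_eq_left] at h2
  have h1 : Fintype.card G = ∑ z : Γ, (univ.filter fun g => π g = z).card := by
    rw [← card_univ]
    exact card_eq_sum_card_fiberwise fun g _ => mem_univ (π g)
  rw [h1, h0 z]
  simp_rw [h0]
  rw [sum_const, card_univ, smul_eq_mul, mul_comm]

/-- the capacity pushed forward to a quotient -/
noncomputable def push (π : G → Γ) (c : G → ℝ) (z : Γ) : ℝ :=
  if z = 0 then 0 else ∑ g with π g = z, c g

lemma push_nonneg (π : G → Γ) {c : G → ℝ} (hc : ∀ g, 0 ≤ c g) (z : Γ) : 0 ≤ push π c z := by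
  unfold push
  split_ifs
  · exact le_rfl
  · exact sum_nonneg fun g _ => hc g

lemma map_one' (π : G → Γ) (hπ : ∀ x y, π (x * y) = π x + π y) : π 1 = 0 := by
  have := hπ 1 1
  rw [mul_one] at this
  exact add_eq_left.1 this.symm

lemma map_inv' (π : G → Γ) (hπ : ∀ x y, π (x * y) = π x + π y) (g : G) : π g⁻¹ = -π g := by
  have := hπ g⁻¹ g
  rw [inv_mul_cancel, map_one' π hπ] at this
  exact (neg_eq_of_add_eq_zero_left this.symm).symm

lemma push_neg (π : G → Γ) (hπ : ∀ x y, π (x * y) = π x + π y) {c : G → ℝ}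
    (hs : ∀ g, c g⁻¹ = c g) (z : Γ) : push π c (-z) = push π c z := by
  unfold push
  by_cases hz : z = 0
  · simp [hz]
  · rw [if_neg (by simpa using hz), if_neg hz]
    refine sum_nbij' (fun g => g⁻¹) (fun g => g⁻¹) ?_ ?_ ?_ ?_ ?_
    · intro g hg
      simp only [mem_filter, mem_univ, true_and] at hg ⊢
      rw [map_inv' π hπ, hg, neg_neg]
    · intro g hg
      simp only [mem_filter, mem_univ, true_and] at hg ⊢
      rw [map_inv' π hπ, hg]
    · intro g _; simp
    · intro g _; simp
    · intro g _; exact (hs g).symm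

/-- the cut lemma for quotients -/
lemma phi_push_gen [DecidableEq G] [Nontrivial Γ] (π : G → Γ) (hπ : ∀ x y, π (x * y) = π x + π y)
    (hsurj : Function.Surjective π) {c : G → ℝ} (hc : ∀ g, 0 ≤ c g) (hs : ∀ g, c g⁻¹ = c g) :
    phi (fun x y : G => c (x⁻¹ * y)) * Fintype.card G ≤
      phi (fun x y : Γ => push π c (x - y)) * Fintype.card Γ := by
  classical
  set k : ℕ := (univ.filter fun g => π g = 0).card with hk
  have hkz : ∀ z : Γ, (univ.filter fun g => π g = z).card = k := by
    intro z
    have h1 := card_fiber π hπ hsurj z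
    have h2 := card_fiber π hπ hsurj 0
    have h3 : 0 < Fintype.card Γ := Fintype.card_pos
    exact Nat.eq_of_mul_eq_mul_right h3 (h1.trans h2.symm)
  have hG : (Fintype.card G : ℝ) = k * Fintype.card Γ := by
    have := card_fiber π hπ hsurj 0
    rw [← this]; push_cast; rfl
  have hkpos : 0 < (k : ℝ) := by
    have h4 : 0 < Fintype.card G := Fintype.card_pos
    have h5 := card_fiber π hπ hsurj 0
    have : 0 < k := by
      rcases Nat.eq_zero_or_pos k with h | h
      · rw [← hk, h, zero_mul] at h5
        omega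
      · exact h
    exact_mod_cast this
  rw [hG, ← mul_assoc]
  refine mul_le_mul_of_nonneg_right ?_ (by positivity)
  refine le_phi fun S _ _ => ?_
  -- the preimage
  have hcardT : ∀ S : Finset Γ, ((univ.filter fun g => π g ∈ S).card : ℝ) = k * S.card := by
    intro S
    have h1 : (univ.filter fun g => π g ∈ S).card =
        ∑ z ∈ S, ((univ.filter fun g => π g ∈ S).filter fun g => π g = z).card :=
      card_eq_sum_card_fiberwise fun g hg => (mem_filter.1 hg).2
    have h2 : ∀ z ∈ S, ((univ.filter fun g => π g ∈ S).filter fun g => π g = z).card = k := by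
      intro z hz
      rw [← hkz z, filter_filter]
      congr 1
      ext g
      simp only [mem_filter, mem_univ, true_and]
      constructor
      · exact fun h => h.2
      · exact fun h => ⟨h ▸ hz, h⟩
    rw [h1, sum_congr rfl h2, sum_const, smul_eq_mul]
    push_cast
    ring
  have hcompl : (univ.filter fun g => π g ∈ S)ᶜ = univ.filter fun g => π g ∈ Sᶜ := by
    ext g; simp
  have hmain := phi_mul_le (c := fun x y : G => c (x⁻¹ * y)) (fun i j => hc _)
    (univ.filter fun g => π g ∈ S)
  rw [hcompl, hcardT, hcardT] at hmain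
  -- the capacity of the preimage
  have hcap : cutCap (fun x y : G => c (x⁻¹ * y)) (univ.filter fun g => π g ∈ S) =
      k * cutCap (fun x y : Γ => push π c (x - y)) S := by
    unfold cutCap
    rw [hcompl]
    have h1 : ∀ x ∈ univ.filter fun g => π g ∈ S,
        ∑ y ∈ univ.filter (fun g => π g ∈ Sᶜ), c (x⁻¹ * y) =
          ∑ w ∈ Sᶜ, push π c (π x - w) := by
      intro x hx
      have hxS : π x ∈ S := (mem_filter.1 hx).2
      have h2 : ∑ y ∈ univ.filter (fun g => π g ∈ Sᶜ), c (x⁻¹ * y) =
          ∑ w ∈ Sᶜ, ∑ y ∈ (univ.filter (fun g => π g ∈ Sᶜ)) with π y = w, c (x⁻¹ * y) :=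
        (sum_fiberwise_of_maps_to (fun g hg => (mem_filter.1 hg).2) _).symm
      rw [h2]
      refine sum_congr rfl fun w hw => ?_
      have hne : π x - w ≠ 0 := by
        intro h
        rw [sub_eq_zero] at h
        rw [h] at hxS
        exact (mem_compl.1 hw) hxS
      rw [← push_neg π hπ hs, neg_sub]
      unfold push
      rw [if_neg (sub_ne_zero.2 (sub_ne_zero.1 hne).symm)]
      refine sum_nbij' (fun y => x⁻¹ * y) (fun g => x * g) ?_ ?_ ?_ ?_ ?_
      · intro y hy
        simp only [mem_filter, mem_univ, true_and] at hy ⊢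
        rw [hπ, map_inv' π hπ, hy.2]
        abel
      · intro g hg
        simp only [mem_filter, mem_univ, true_and] at hg ⊢
        have : π (x * g) = w := by rw [hπ, hg]; abel
        exact ⟨by rw [this]; exact hw, this⟩
      · intro y _; simp
      · intro y _; simp
      · intro y _; rfl
    rw [sum_congr rfl h1]
    have h3 : ∑ x ∈ univ.filter (fun g => π g ∈ S), ∑ w ∈ Sᶜ, push π c (π x - w) =
        ∑ u ∈ S, ∑ x ∈ (univ.filter (fun g => π g ∈ S)) with π x = u,
          ∑ w ∈ Sᶜ, push π c (π x - w) :=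
      (sum_fiberwise_of_maps_to (fun g hg => (mem_filter.1 hg).2) _).symm
    rw [h3, mul_sum]
    refine sum_congr rfl fun u hu => ?_
    have h4 : ∀ x ∈ (univ.filter (fun g => π g ∈ S)).filter fun x => π x = u,
        ∑ w ∈ Sᶜ, push π c (π x - w) = ∑ w ∈ Sᶜ, push π c (u - w) := by
      intro x hx
      rw [(mem_filter.1 hx).2]
    rw [sum_congr rfl h4, sum_const, nsmul_eq_mul]
    congr 2
    rw [← hkz u, filter_filter]
    congr 1
    ext g
    simp only [mem_filter, mem_univ, true_and]
    constructor
    · exact fun h => h.2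
    · exact fun h => ⟨h ▸ hu, h⟩
  rw [hcap] at hmain
  have h5 : (k : ℝ) * (phi (fun x y : G => c (x⁻¹ * y)) * k * ((S.card : ℝ) * (Sᶜ).card)) ≤
      k * cutCap (fun x y : Γ => push π c (x - y)) S := by
    calc (k : ℝ) * (phi (fun x y : G => c (x⁻¹ * y)) * k * ((S.card : ℝ) * (Sᶜ).card)) =
        phi (fun x y : G => c (x⁻¹ * y)) * (k * (S.card : ℝ) * (k * ((Sᶜ).card : ℝ))) := by ring
      _ ≤ _ := hmain
  exact le_of_mul_le_mul_left h5 hkpos

/-- the minimum over a coset -/
lemma exists_min_coset (π : G → Γ) (hπ : ∀ x y, π (x * y) = π x + π y)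
    (hsurj : Function.Surjective π) (F : G → ℝ) :
    ∃ r : Γ → ℝ, (∀ g, r (π g) ≤ F g) ∧ (∀ z, ∃ g, π g = z ∧ r z = F g) ∧
      ((∀ g h, F (g * h) ≤ F g + F h) → ∀ z w, r (z + w) ≤ r z + r w) ∧
      ((∀ g, F g⁻¹ = F g) → ∀ z, r (-z) = r z) ∧
      ((∀ g, 0 ≤ F g) → ∀ z, 0 ≤ r z) := by
  classical
  have hne : ∀ z : Γ, (univ.filter fun g => π g = z).Nonempty := by
    intro z
    obtain ⟨a, ha⟩ := hsurj z
    exact ⟨a, by simp [ha]⟩
  have hex : ∀ z : Γ, ∃ g, π g = z ∧ ∀ g', π g' = z → F g ≤ F g' := by
    intro z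
    obtain ⟨g, hg, hmin⟩ := exists_min_image _ F (hne z)
    refine ⟨g, (mem_filter.1 hg).2, fun g' hg' => hmin g' (by simp [hg'])⟩
  choose s hs1 hs2 using hex
  refine ⟨fun z => F (s z), fun g => hs2 _ g rfl, fun z => ⟨s z, hs1 z, rfl⟩, ?_, ?_, ?_⟩
  · intro h z w
    exact (hs2 (z + w) (s z * s w) (by rw [hπ, hs1, hs1])).trans (h _ _)
  · intro h z
    apply le_antisymm
    · have := hs2 (-z) (s z)⁻¹ (by rw [map_inv' π hπ, hs1])
      rwa [h] at this
    · have := hs2 z (s (-z))⁻¹ (by rw [map_inv' π hπ, hs1, neg_neg])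
      rwa [h] at this
  · intro h z
    exact h _

end Quot

section Abel

variable [Fintype (Additive (Abelianization G))] [DecidableEq (Additive (Abelianization G))]

/-- the class map -/
def cl (g : G) : Additive (Abelianization G) := Additive.ofMul (Abelianization.of g)

omit [Fintype G] [Fintype (Additive (Abelianization G))]
  [DecidableEq (Additive (Abelianization G))] in
lemma cl_mul (x y : G) : cl (x * y) = cl x + cl y := by
  simp [cl]

omit [Fintype G] [Fintype (Additive (Abelianization G))]
  [DecidableEq (Additive (Abelianization G))] in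
lemma cl_surjective : Function.Surjective (cl : G → Additive (Abelianization G)) := by
  intro z
  obtain ⟨a, ha⟩ := QuotientGroup.mk_surjective (Additive.toMul z)
  exact ⟨a, by rw [← ofMul_toMul z]; exact congrArg Additive.ofMul ha⟩

lemma sum_coset (c : G → ℝ) (F : Additive (Abelianization G) → ℝ) :
    ∑ g, c g * F (Additive.ofMul (Abelianization.of g)) =
      ∑ z, (∑ g with Additive.ofMul (Abelianization.of g) = z, c g) * F z :=
  sum_coset_gen (fun g : G => (Additive.ofMul (Abelianization.of g) : Additive (Abelianization G)))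
    c F

/-- the cut lemma for the largest abelian quotient -/
lemma phi_push [DecidableEq G] [Nontrivial (Additive (Abelianization G))] {c : G → ℝ}
    (hc : ∀ g, 0 ≤ c g) (hs : ∀ g, c g⁻¹ = c g) :
    phi (fun x y : G => c (x⁻¹ * y)) * Fintype.card G ≤
      phi (fun x y : Additive (Abelianization G) =>
        (fun z : Additive (Abelianization G) => if z = 0 then (0 : ℝ) else
          ∑ g with Additive.ofMul (Abelianization.of g) = z, c g) (x - y)) *
        Fintype.card (Additive (Abelianization G)) :=
  phi_push_gen (cl : G → Additive (Abelianization G)) cl_mul cl_surjective hc hs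

/-- the minimum over a coset of the commutator subgroup -/
lemma exists_min (F : G → ℝ) :
    ∃ r : Additive (Abelianization G) → ℝ,
      (∀ g, r (Additive.ofMul (Abelianization.of g)) ≤ F g) ∧
      (∀ z, ∃ g, Additive.ofMul (Abelianization.of g) = z ∧ r z = F g) ∧
      ((∀ g h, F (g * h) ≤ F g + F h) → ∀ z w, r (z + w) ≤ r z + r w) ∧
      ((∀ g, F g⁻¹ = F g) → ∀ z, r (-z) = r z) ∧
      ((∀ g, 0 ≤ F g) → ∀ z, 0 ≤ r z) :=
  exists_min_coset (cl : G → Additive (Abelianization G)) cl_mul cl_surjective F

lemma cb_nonneg {c : G → ℝ} (hc : ∀ g, 0 ≤ c g) (z : Additive (Abelianization G)) :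
    0 ≤ (if z = 0 then (0 : ℝ) else ∑ g with Additive.ofMul (Abelianization.of g) = z, c g) :=
  push_nonneg (cl : G → Additive (Abelianization G)) hc z

lemma cb_neg {c : G → ℝ} (hs : ∀ g, c g⁻¹ = c g) (z : Additive (Abelianization G)) :
    (if -z = 0 then (0 : ℝ) else ∑ g with Additive.ofMul (Abelianization.of g) = -z, c g) =
      (if z = 0 then (0 : ℝ) else ∑ g with Additive.ofMul (Abelianization.of g) = z, c g) :=
  push_neg (cl : G → Additive (Abelianization G)) cl_mul hs z

end Abel

section Subgroup

open Classical in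
/-- a proper subgroup as a cut -/
lemma phi_le_subgroup [DecidableEq G] {c : G → ℝ} (hc : ∀ g, 0 ≤ c g)
    {H : Subgroup G} (hH : H ≠ ⊤) :
    phi (fun x y : G => c (x⁻¹ * y)) * Fintype.card G ≤ 2 * ∑ g with g ∉ H, c g := by
  have hmain := phi_mul_le (c := fun x y : G => c (x⁻¹ * y)) (fun i j => hc _)
    (univ.filter fun g => g ∈ H)
  have hcompl : (univ.filter fun g => g ∈ H)ᶜ = univ.filter fun g => g ∉ H := by
    ext g; simp
  rw [hcompl] at hmain
  have hcap : cutCap (fun x y : G => c (x⁻¹ * y)) (univ.filter fun g => g ∈ H) =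
      ((univ.filter fun g => g ∈ H).card : ℝ) * ∑ g with g ∉ H, c g := by
    unfold cutCap
    rw [hcompl]
    have h1 : ∀ x ∈ univ.filter fun g => g ∈ H,
        ∑ y ∈ univ.filter (fun g => g ∉ H), c (x⁻¹ * y) = ∑ g with g ∉ H, c g := by
      intro x hx
      have hxH : x ∈ H := (mem_filter.1 hx).2
      refine sum_nbij' (fun y => x⁻¹ * y) (fun g => x * g) ?_ ?_ ?_ ?_ ?_
      · intro y hy
        simp only [mem_filter, mem_univ, true_and] at hy ⊢
        intro h
        exact hy (by simpa using H.mul_mem hxH h)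
      · intro g hg
        simp only [mem_filter, mem_univ, true_and] at hg ⊢
        intro h
        exact hg (by simpa using H.mul_mem (H.inv_mem hxH) h)
      · intro y _; simp
      · intro y _; simp
      · intro y _; rfl
    rw [sum_congr rfl h1, sum_const, nsmul_eq_mul]
  rw [hcap] at hmain
  have hpos : 0 < ((univ.filter fun g => g ∈ H).card : ℝ) := by
    have : (univ.filter fun g => g ∈ H).Nonempty := ⟨1, by simp [H.one_mem]⟩
    exact_mod_cast this.card_pos
  have h2 : phi (fun x y : G => c (x⁻¹ * y)) * ((univ.filter fun g => g ∉ H).card : ℝ) ≤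
      ∑ g with g ∉ H, c g := by
    refine le_of_mul_le_mul_left ?_ hpos
    calc ((univ.filter fun g => g ∈ H).card : ℝ) *
          (phi (fun x y : G => c (x⁻¹ * y)) * ((univ.filter fun g => g ∉ H).card : ℝ)) =
        phi (fun x y : G => c (x⁻¹ * y)) * (((univ.filter fun g => g ∈ H).card : ℝ) *
          ((univ.filter fun g => g ∉ H).card : ℝ)) := by ring
      _ ≤ _ := hmain
  -- the complement has at least half of the elements
  obtain ⟨a, ha⟩ : ∃ a, a ∉ H := by
    by_contra hcon
    push Not at hcon
    exact hH ((Subgroup.eq_top_iff' H).2 hcon)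
  have h3 : (univ.filter fun g => g ∈ H).card ≤ (univ.filter fun g => g ∉ H).card := by
    refine card_le_card_of_injOn (fun g => a * g) ?_ ?_
    · intro g hg
      simp only [coe_filter, mem_univ, true_and, Set.mem_ofPred_eq] at hg ⊢
      intro h
      exact ha (by simpa using H.mul_mem h (H.inv_mem hg))
    · intro g _ g' _ h
      exact mul_left_cancel h
  have h4 : Fintype.card G = (univ.filter fun g => g ∈ H).card +
      (univ.filter fun g => g ∉ H).card := by
    rw [← card_univ]
    exact (card_filter_add_card_filter_not _).symm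
  have h5 : (Fintype.card G : ℝ) ≤ 2 * ((univ.filter fun g => g ∉ H).card : ℝ) := by
    have : Fintype.card G ≤ 2 * (univ.filter fun g => g ∉ H).card := by omega
    exact_mod_cast this
  have h6 : 0 ≤ phi (fun x y : G => c (x⁻¹ * y)) := phi_nonneg fun i j => hc _
  calc phi (fun x y : G => c (x⁻¹ * y)) * Fintype.card G ≤
      phi (fun x y : G => c (x⁻¹ * y)) * (2 * ((univ.filter fun g => g ∉ H).card : ℝ)) :=
        mul_le_mul_of_nonneg_left h5 h6
    _ = 2 * (phi (fun x y : G => c (x⁻¹ * y)) * ((univ.filter fun g => g ∉ H).card : ℝ)) := by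
        ring
    _ ≤ _ := by linarith

end Subgroup

end Vale.Agent.P318.R2.H402
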