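import Mathlib

/-!
# Products of few conjugates

`Pr m x y`: the element `y` is a product of at most `m` conjugates of `x` and `x⁻¹`.
`Two T m`: the group `T` is generated by two subgroups all of whose elements are products of at
most `m` conjugates of `x` and `x⁻¹`, for every `x ≠ 1`.
-/

namespace Vale.Agent.P318.R2.H402

/-- `T` is generated by two subgroups `A`, `B` such that, for every `x ≠ 1`, every element of `A`
and of `B` is a product of at most `m` conjugates of `x` and `x⁻¹`. -/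
def Two (T : Type*) [Group T] (m : ℕ) : Prop :=
  ∃ A B : Subgroup T, A ⊔ B = ⊤ ∧ ∀ x : T, x ≠ 1 → ∀ y, (y ∈ A ∨ y ∈ B) →
    ∃ w : List T, w.length ≤ m ∧ (∀ u ∈ w, IsConj x u ∨ IsConj x⁻¹ u) ∧ w.prod = y

/-- `y` is a product of at most `m` conjugates of `x` and `x⁻¹`. -/
def Pr {T : Type*} [Group T] (m : ℕ) (x y : T) : Prop :=
  ∃ w : List T, w.length ≤ m ∧ (∀ u ∈ w, IsConj x u ∨ IsConj x⁻¹ u) ∧ w.prod = y

variable {T S : Type*} [Group T] [Group S]

theorem Pr.one (m : ℕ) (x : T) : Pr m x 1 := ⟨[], by simp, by simp, by simp⟩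

theorem Pr.mono {m n : ℕ} {x y : T} (h : Pr m x y) (hmn : m ≤ n) : Pr n x y := by
  obtain ⟨w, h1, h2, h3⟩ := h
  exact ⟨w, h1.trans hmn, h2, h3⟩

theorem Pr.map {m : ℕ} {x y : T} (h : Pr m x y) (f : T →* S) : Pr m (f x) (f y) := by
  obtain ⟨w, h1, h2, rfl⟩ := h
  refine ⟨w.map f, by simpa using h1, ?_, by rw [map_list_prod]⟩
  intro u hu
  obtain ⟨v, hv, rfl⟩ := List.mem_map.1 hu
  rcases h2 v hv with h | h
  · left
    obtain ⟨c, hc⟩ := isConj_iff.1 h
    exact isConj_iff.2 ⟨f c, by rw [← hc]; simp⟩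
  · right
    obtain ⟨c, hc⟩ := isConj_iff.1 h
    exact isConj_iff.2 ⟨f c, by rw [← hc]; simp⟩

theorem Pr.conj {m : ℕ} {x y : T} (h : Pr m x y) (c : T) : Pr m x (c * y * c⁻¹) := by
  obtain ⟨w, h1, h2, rfl⟩ := h
  refine ⟨w.map (MulAut.conj c), by simpa using h1, ?_, ?_⟩
  · intro u hu
    obtain ⟨v, hv, rfl⟩ := List.mem_map.1 hu
    have hc : IsConj v (MulAut.conj c v) := isConj_iff.2 ⟨c, by simp [MulAut.conj_apply]⟩
    rcases h2 v hv with h | h
    · exact Or.inl (h.trans hc)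
    · exact Or.inr (h.trans hc)
  · have := map_list_prod (MulAut.conj c) w
    rw [← this, MulAut.conj_apply]

theorem Pr.isConj {m : ℕ} {x y z : T} (h : Pr m x y) (hz : IsConj y z) : Pr m x z := by
  obtain ⟨c, rfl⟩ := isConj_iff.1 hz
  exact h.conj c

theorem Pr.mul {m n : ℕ} {x y z : T} (h : Pr m x y) (h' : Pr n x z) : Pr (m + n) x (y * z) := by
  obtain ⟨w, h1, h2, rfl⟩ := h
  obtain ⟨w', h1', h2', rfl⟩ := h'
  refine ⟨w ++ w', by simp; omega, ?_, by simp⟩
  intro u hu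
  rcases List.mem_append.1 hu with hu | hu
  · exact h2 u hu
  · exact h2' u hu

theorem Pr.self (x : T) : Pr 1 x x :=
  ⟨[x], by simp, by intro u hu; rw [List.mem_singleton.1 hu]; exact Or.inl (IsConj.refl x),
    by simp⟩

theorem Pr.inv_self (x : T) : Pr 1 x x⁻¹ :=
  ⟨[x⁻¹], by simp, by intro u hu; rw [List.mem_singleton.1 hu]; exact Or.inr (IsConj.refl _),
    by simp⟩

theorem Pr.inv {m : ℕ} {x y : T} (h : Pr m x y) : Pr m x y⁻¹ := by
  obtain ⟨w, h1, h2, rfl⟩ := h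
  refine ⟨(w.map (fun u => u⁻¹)).reverse, by simpa using h1, ?_, by rw [List.prod_inv_reverse]⟩
  intro u hu
  obtain ⟨v, hv, rfl⟩ := List.mem_map.1 (List.mem_reverse.1 hu)
  have hinv : ∀ a b : T, IsConj a b → IsConj a⁻¹ b⁻¹ := by
    intro a b hab
    obtain ⟨c, rfl⟩ := isConj_iff.1 hab
    exact isConj_iff.2 ⟨c, by group⟩
  rcases h2 v hv with h | h
  · exact Or.inr (hinv _ _ h)
  · left
    simpa using hinv _ _ h

/-- A commutator with `x` is a product of two conjugates of `x`, `x⁻¹`. -/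
theorem Pr.comm {m : ℕ} {x y : T} (h : Pr m x y) (s : T) :
    Pr (m + m) x (y * (s * y⁻¹ * s⁻¹)) :=
  h.mul (h.inv.conj s)

end Vale.Agent.P318.R2.H402
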