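import Vale.Agent.P318.R2.H402.TwoDef

/-!
# Transvections as products of four conjugates

`four`: in the special linear group of degree at least three over a field, every transvection is a
product of at most four conjugates of `g` and `g⁻¹`, for every `g` outside the center.
-/

open Matrix

namespace Vale.Agent.P318.R2.H402

variable {n F : Type*} [Fintype n] [DecidableEq n] [Field F]

theorem det_tv (v φ : n → F) (h : φ ⬝ᵥ v = 0) : (1 + vecMulVec v φ).det = 1 := by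
  rw [vecMulVec_eq Unit, det_one_add_replicateCol_mul_replicateRow, h]; simp

/-- The transvection `x ↦ x + φ(x) v`. -/
def tv (v φ : n → F) (h : φ ⬝ᵥ v = 0) : Matrix.SpecialLinearGroup n F :=
  ⟨1 + vecMulVec v φ, det_tv v φ h⟩

theorem tv_mulVec {v φ : n → F} (h : φ ⬝ᵥ v = 0) (x : n → F) :
    (tv v φ h).1 *ᵥ x = x + (φ ⬝ᵥ x) • v := by
  simp only [tv, add_mulVec, one_mulVec, vecMulVec_mulVec]
  ext i; simp [mul_comm]

theorem vecMul_tv {v φ : n → F} (h : φ ⬝ᵥ v = 0) (x : n → F) :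
    x ᵥ* (tv v φ h).1 = x + (x ⬝ᵥ v) • φ := by
  simp only [tv, vecMul_add, vecMul_one, vecMul_vecMulVec]

theorem tv_conj {v φ v' φ' : n → F} (h : φ ⬝ᵥ v = 0) (h' : φ' ⬝ᵥ v' = 0)
    (g : Matrix.SpecialLinearGroup n F) (h1 : g.1 *ᵥ v = v') (h2 : φ' ᵥ* g.1 = φ) :
    g * tv v φ h * g⁻¹ = tv v' φ' h' := by
  rw [mul_inv_eq_iff_eq_mul]
  apply Subtype.ext
  change g.1 * (1 + vecMulVec v φ) = (1 + vecMulVec v' φ') * g.1
  rw [mul_add, add_mul, mul_vecMulVec, vecMulVec_mul, h1, h2, mul_one, one_mul]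

theorem tv_mul {a b φ : n → F} (ha : φ ⬝ᵥ a = 0) (hb : φ ⬝ᵥ b = 0) (hab : φ ⬝ᵥ (a + b) = 0) :
    tv a φ ha * tv b φ hb = tv (a + b) φ hab := by
  apply Subtype.ext
  change (1 + vecMulVec a φ) * (1 + vecMulVec b φ) = 1 + vecMulVec (a + b) φ
  simp only [mul_add, add_mul, mul_one, one_mul, vecMulVec_mul_vecMulVec, hb, zero_smul,
    vecMulVec_zero, add_zero, add_vecMulVec, add_assoc]

theorem tv_zero {φ : n → F} (h : φ ⬝ᵥ (0 : n → F) = 0) : tv 0 φ h = 1 := by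
  apply Subtype.ext
  change 1 + vecMulVec 0 φ = 1
  simp

theorem tv_inv {a φ : n → F} (ha : φ ⬝ᵥ a = 0) (ha' : φ ⬝ᵥ (-a) = 0) :
    (tv a φ ha)⁻¹ = tv (-a) φ ha' := by
  apply inv_eq_of_mul_eq_one_right
  have h0 : φ ⬝ᵥ (a + -a) = 0 := by simp
  rw [tv_mul ha ha' h0]
  have : ∀ (z : n → F) (hz : φ ⬝ᵥ z = 0), z = 0 → tv z φ hz = 1 := by
    rintro z hz rfl
    exact tv_zero hz
  exact this _ _ (by simp)

/-- A functional separating `u` from `d`. -/
theorem exists_sep (u d : n → F) (hu : u ≠ 0) (hd : ∀ c : F, d ≠ c • u) :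
    ∃ ψ : n → F, ψ ⬝ᵥ u = 1 ∧ ψ ⬝ᵥ d = 0 := by
  obtain ⟨i, hi⟩ := Function.ne_iff.1 hu
  obtain ⟨j, hj⟩ := Function.ne_iff.1 (hd (d i / u i))
  simp only [Pi.zero_apply] at hi
  simp only [Pi.smul_apply, smul_eq_mul] at hj
  have hD : u i * d j - u j * d i ≠ 0 := by
    intro h
    apply hj
    field_simp
    linear_combination h
  refine ⟨fun k => (u i * d j - u j * d i)⁻¹ * (d j * (Pi.single i 1 : n → F) k
    - d i * (Pi.single j 1 : n → F) k), ?_, ?_⟩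
  · simp only [dotProduct, mul_assoc, ← Finset.mul_sum, sub_mul, Finset.sum_sub_distrib,
      Pi.single_apply, ite_mul, one_mul, zero_mul, Finset.sum_ite_eq', Finset.mem_univ, if_true]
    rw [inv_mul_eq_div, div_eq_one_iff_eq hD]
    ring
  · simp only [dotProduct, mul_assoc, ← Finset.mul_sum, sub_mul, Finset.sum_sub_distrib,
      Pi.single_apply, ite_mul, one_mul, zero_mul, Finset.sum_ite_eq', Finset.mem_univ, if_true]
    rw [mul_comm (d i) (d j), sub_self, mul_zero]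

omit [DecidableEq n] in
/-- Two functionals on a space of dimension at least three have a common zero. -/
theorem exists_ker2 (hn : 3 ≤ Fintype.card n) (a b : n → F) :
    ∃ c : n → F, c ≠ 0 ∧ a ⬝ᵥ c = 0 ∧ b ⬝ᵥ c = 0 := by
  let f : (n → F) →ₗ[F] (Fin 2 → F) := Matrix.mulVecLin (Matrix.of ![a, b])
  have hf : LinearMap.ker f ≠ ⊥ := by
    apply LinearMap.ker_ne_bot_of_finrank_lt
    simp
    omega
  obtain ⟨c, hc, hc0⟩ := Submodule.exists_mem_ne_zero_of_ne_bot hf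
  have h := LinearMap.mem_ker.1 hc
  refine ⟨c, hc0, ?_, ?_⟩
  · have := congrFun h 0
    simpa [f, Matrix.mulVecLin, Matrix.mulVec] using this
  · have := congrFun h 1
    simpa [f, Matrix.mulVecLin, Matrix.mulVec] using this

theorem isConj_vec_aux {u u' φ : n → F} (h : φ ⬝ᵥ u = 0) (h' : φ ⬝ᵥ u' = 0) (hu : u ≠ 0)
    (hi : ∀ c : F, u' ≠ c • u) : IsConj (tv u φ h) (tv u' φ h') := by
  obtain ⟨ψ, h1, h2⟩ := exists_sep u (u' - u) hu (by
    intro c hc
    apply hi (c + 1)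
    rw [add_smul, one_smul, ← hc]; abel)
  refine isConj_iff.2 ⟨tv (u' - u) ψ h2, tv_conj h h' _ ?_ ?_⟩
  · rw [tv_mulVec, h1, one_smul]; abel
  · rw [vecMul_tv, dotProduct_sub, h, h', sub_zero, zero_smul, add_zero]

theorem exists_indep (hn : 3 ≤ Fintype.card n) (u φ : n → F) (hu : u ≠ 0) :
    ∃ w : n → F, φ ⬝ᵥ w = 0 ∧ w ≠ 0 ∧ ∀ c : F, w ≠ c • u := by
  obtain ⟨i, hi⟩ := Function.ne_iff.1 hu
  simp only [Pi.zero_apply] at hi
  obtain ⟨w, hw, h1, h2⟩ := exists_ker2 hn φ (Pi.single i 1)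
  refine ⟨w, h1, hw, ?_⟩
  rintro c rfl
  rw [single_one_dotProduct] at h2
  simp only [Pi.smul_apply, smul_eq_mul, mul_eq_zero, hi, or_false] at h2
  apply hw
  rw [h2, zero_smul]

theorem isConj_vec (hn : 3 ≤ Fintype.card n) {u u' φ : n → F} (h : φ ⬝ᵥ u = 0) (h' : φ ⬝ᵥ u' = 0)
    (hu : u ≠ 0) (hu' : u' ≠ 0) : IsConj (tv u φ h) (tv u' φ h') := by
  by_cases hi : ∀ c : F, u' ≠ c • u
  · exact isConj_vec_aux h h' hu hi
  · push Not at hi
    obtain ⟨c, rfl⟩ := hi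
    have hc : c ≠ 0 := by
      rintro rfl
      simp at hu'
    obtain ⟨w, hw, hw0, hwi⟩ := exists_indep hn u φ hu
    refine (isConj_vec_aux h hw hu hwi).trans (isConj_vec_aux hw h' hw0 ?_)
    intro e he
    have he0 : e ≠ 0 := by
      rintro rfl
      rw [zero_smul] at he
      exact hu' he
    apply hwi (e⁻¹ * c)
    rw [mul_smul, he, smul_smul, inv_mul_cancel₀ he0, one_smul]

theorem isConj_fun_aux {u φ φ' : n → F} (h : φ ⬝ᵥ u = 0) (h' : φ' ⬝ᵥ u = 0) (hφ' : φ' ≠ 0)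
    (hi : ∀ c : F, φ ≠ c • φ') : IsConj (tv u φ h) (tv u φ' h') := by
  obtain ⟨a, h1, h2⟩ := exists_sep φ' (φ - φ') hφ' (by
    intro c hc
    apply hi (c + 1)
    rw [add_smul, one_smul, ← hc]; abel)
  have h3 : (φ - φ') ⬝ᵥ a = 0 := by rw [dotProduct_comm, h2]
  refine isConj_iff.2 ⟨tv a (φ - φ') h3, tv_conj h h' _ ?_ ?_⟩
  · rw [tv_mulVec, sub_dotProduct, h, h', sub_zero, zero_smul, add_zero]
  · rw [vecMul_tv, dotProduct_comm φ' a, h1, one_smul]; abel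

theorem isConj_fun (hn : 3 ≤ Fintype.card n) {u φ φ' : n → F} (h : φ ⬝ᵥ u = 0)
    (h' : φ' ⬝ᵥ u = 0) (hφ : φ ≠ 0) (hφ' : φ' ≠ 0) : IsConj (tv u φ h) (tv u φ' h') := by
  by_cases hi : ∀ c : F, φ ≠ c • φ'
  · exact isConj_fun_aux h h' hφ' hi
  · push Not at hi
    obtain ⟨c, rfl⟩ := hi
    have hc : c ≠ 0 := by
      rintro rfl
      simp at hφ
    obtain ⟨w, hw, hw0, hwi⟩ := exists_indep hn φ' u hφ'
    have hw' : w ⬝ᵥ u = 0 := by rw [dotProduct_comm, hw]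
    refine (isConj_fun_aux h hw' hw0 ?_).trans (isConj_fun_aux hw' h' hφ' hwi)
    intro e he
    have he0 : e ≠ 0 := by
      rintro rfl
      rw [zero_smul] at he
      exact hφ he
    apply hwi (e⁻¹ * c)
    rw [mul_smul, he, smul_smul, inv_mul_cancel₀ he0, one_smul]

/-- All transvections are conjugate (degree at least three). -/
theorem isConj_tv (hn : 3 ≤ Fintype.card n) {u u' φ φ' : n → F} (h : φ ⬝ᵥ u = 0)
    (h' : φ' ⬝ᵥ u' = 0) (hu : u ≠ 0) (hu' : u' ≠ 0) (hφ : φ ≠ 0) (hφ' : φ' ≠ 0) :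
    IsConj (tv u φ h) (tv u' φ' h') := by
  obtain ⟨w, hw, h1, h2⟩ := exists_ker2 hn φ φ'
  exact ((isConj_vec hn h h1 hu hw).trans (isConj_fun hn h1 h2 hφ hφ')).trans
    (isConj_vec hn h2 h' hw hu')

/-- A matrix of determinant one outside the center moves some line. -/
theorem exists_moved (g : Matrix.SpecialLinearGroup n F)
    (hg : g ∉ Subgroup.center (Matrix.SpecialLinearGroup n F)) :
    ∃ v : n → F, ∀ c : F, g.1 *ᵥ v ≠ c • v := by
  by_contra hcon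
  push Not at hcon
  apply hg
  rcases isEmpty_or_nonempty n with he | ⟨⟨i₀⟩⟩
  · rw [Subgroup.mem_center_iff]
    intro x
    ext i
    exact he.elim i
  choose c hc using hcon
  have hcol : ∀ i j, g.1 j i = c (Pi.single i 1) * (Pi.single i 1 : n → F) j := by
    intro i j
    have := congrFun (hc (Pi.single i 1)) j
    simpa using this
  have hall : ∀ i, c (Pi.single i 1) = c (Pi.single i₀ 1) := by
    intro i
    by_cases hi : i = i₀
    · rw [hi]
    have h := hc (Pi.single i 1 + Pi.single i₀ 1)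
    rw [mulVec_add, hc, hc] at h
    have h1 := congrFun h i
    have h2 := congrFun h i₀
    simp [hi, Ne.symm hi] at h1 h2
    rw [h1, h2]
  have hs : g.1 = Matrix.scalar n (c (Pi.single i₀ 1)) := by
    ext j i
    rw [hcol, hall, Matrix.scalar_apply, Matrix.diagonal_apply, Pi.single_apply]
    by_cases hij : j = i <;> simp [hij]
  rw [Matrix.SpecialLinearGroup.mem_center_iff]
  refine ⟨c (Pi.single i₀ 1), ?_, hs.symm⟩
  have hdet := g.2
  rw [hs] at hdet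
  simpa using hdet

/-- Every transvection is a product of four conjugates of `g` and `g⁻¹`. -/
theorem four_tv (hn : 3 ≤ Fintype.card n) (g : Matrix.SpecialLinearGroup n F)
    (hg : g ∉ Subgroup.center (Matrix.SpecialLinearGroup n F)) (v φ : n → F) (h : φ ⬝ᵥ v = 0) :
    Pr 4 g (tv v φ h) := by
  by_cases hv0 : v = 0
  · subst hv0
    rw [tv_zero]
    exact Pr.one 4 g
  by_cases hφ0 : φ = 0
  · subst hφ0
    have : tv v 0 h = 1 := by
      apply Subtype.ext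
      change 1 + vecMulVec v 0 = 1
      simp
    rw [this]
    exact Pr.one 4 g
  obtain ⟨a, ha⟩ := exists_moved g hg
  set b := g.1 *ᵥ a with hb
  have ha0 : a ≠ 0 := by
    intro h0
    apply ha 0
    rw [hb, h0]; simp
  have hb0 : b ≠ 0 := by
    intro h0
    apply ha 0
    rw [h0]; simp
  have hab : ∀ c : F, a ≠ c • b := by
    intro c hc
    have hc0 : c ≠ 0 := by
      rintro rfl
      rw [zero_smul] at hc
      exact ha0 hc
    apply ha c⁻¹
    conv_rhs => rw [hc]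
    rw [smul_smul, inv_mul_cancel₀ hc0, one_smul]
  obtain ⟨ψ, hψb, hψa⟩ := exists_sep b a hb0 hab
  obtain ⟨θ, hθ, hθa', hθb'⟩ := exists_ker2 hn a b
  have hθa : θ ⬝ᵥ a = 0 := by rw [dotProduct_comm, hθa']
  have hθb : θ ⬝ᵥ b = 0 := by rw [dotProduct_comm, hθb']
  -- the first commutator
  set τ := tv a ψ hψa with hτ
  set c := g * (τ * g⁻¹ * τ⁻¹) with hc
  have hPc : Pr 2 g c := (Pr.self g).comm τ
  have hψn : ψ ⬝ᵥ (-a) = 0 := by rw [dotProduct_neg, hψa, neg_zero]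
  -- action of `c`
  have hinv : ∀ y, g.1 *ᵥ ((g⁻¹).1 *ᵥ y) = y := by
    intro y
    rw [mulVec_mulVec, ← Matrix.SpecialLinearGroup.coe_mul, mul_inv_cancel]
    simp
  have hcx : ∀ x, c.1 *ᵥ x = (x - (ψ ⬝ᵥ x) • a)
      + (ψ ⬝ᵥ ((g⁻¹).1 *ᵥ (x - (ψ ⬝ᵥ x) • a))) • b := by
    intro x
    have e1 : c.1 = g.1 * τ.1 * (g⁻¹).1 * (tv (-a) ψ hψn).1 := by
      rw [hc, hτ, tv_inv hψa hψn]
      simp [mul_assoc]
    rw [e1, ← mulVec_mulVec, ← mulVec_mulVec, ← mulVec_mulVec, tv_mulVec hψn, smul_neg,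
      ← sub_eq_add_neg, tv_mulVec hψa, mulVec_add, hinv, mulVec_smul]
  have hcb : c.1 *ᵥ b - b ≠ 0 := by
    intro h0
    rw [hcx, hψb, one_smul] at h0
    apply hab (ψ ⬝ᵥ ((g⁻¹).1 *ᵥ (b - a)))
    have : a = (ψ ⬝ᵥ ((g⁻¹).1 *ᵥ (b - a))) • b := by
      have h1 := h0
      rw [sub_add_eq_add_sub, sub_sub, sub_eq_zero] at h1
      exact (add_left_cancel (h1.trans (add_comm _ _))).symm
    exact this
  have hθc : ∀ x, θ ⬝ᵥ (c.1 *ᵥ x) = θ ⬝ᵥ x := by
    intro x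
    rw [hcx, dotProduct_add, dotProduct_sub, dotProduct_smul, dotProduct_smul, hθa, hθb]
    simp
  have hθc' : θ ᵥ* c.1 = θ := by
    ext i
    have := hθc (Pi.single i 1)
    rw [dotProduct_mulVec] at this
    simpa using this
  -- the second commutator
  set s := tv b θ hθb with hs
  have hθz : θ ⬝ᵥ (c.1 *ᵥ b - b) = 0 := by rw [dotProduct_sub, hθc, sub_self]
  have h4 : Pr 4 g (c * (s * c⁻¹ * s⁻¹)) := hPc.comm s
  have hθcb : θ ⬝ᵥ (c.1 *ᵥ b) = 0 := by rw [hθc, hθb]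
  have hθn : θ ⬝ᵥ (-b) = 0 := by rw [dotProduct_neg, hθb, neg_zero]
  have e2 : c * (s * c⁻¹ * s⁻¹) = tv (c.1 *ᵥ b - b) θ hθz := by
    have e3 : c * s * c⁻¹ = tv (c.1 *ᵥ b) θ hθcb := tv_conj hθb hθcb c rfl hθc'
    have e4 : c * (s * c⁻¹ * s⁻¹) = (c * s * c⁻¹) * s⁻¹ := by group
    rw [e4, e3, hs, tv_inv hθb hθn]
    have h5 : θ ⬝ᵥ (c.1 *ᵥ b + -b) = 0 := by rw [← sub_eq_add_neg, hθz]
    rw [tv_mul hθcb hθn h5]
    apply Subtype.ext
    change 1 + vecMulVec (c.1 *ᵥ b + -b) θ = 1 + vecMulVec (c.1 *ᵥ b - b) θ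
    rw [sub_eq_add_neg]
  rw [e2] at h4
  exact h4.isConj (isConj_tv hn hθz h hcb hv0 hθ hφ0)

/-- In degree at least three over a field, every transvection is a product of at most four
conjugates of `g` and `g⁻¹`, for every `g` outside the center. -/
theorem four (hn : 3 ≤ Fintype.card n) (g : Matrix.SpecialLinearGroup n F)
    (hg : g ∉ Subgroup.center (Matrix.SpecialLinearGroup n F)) (v φ : n → F) (h : φ ⬝ᵥ v = 0)
    (M : Matrix.SpecialLinearGroup n F) (hM : (M : Matrix n n F) = 1 + vecMulVec v φ) :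
    Pr 4 g M := by
  have : M = tv v φ h := Subtype.ext hM
  rw [this]
  exact four_tv hn g hg v φ h

end Vale.Agent.P318.R2.H402
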