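import Mathlib

/-!
# Permutations as products of involutions

`two_inv`: every permutation `σ` is a product of two involutions which fix all fixed points of
`σ`. `three_inv`: for `n ≥ 5` every element of the alternating group on `n` points is a product
of three involutions of the alternating group.
-/

open Equiv Equiv.Perm

namespace Vale.Agent.P318.R2.H402

section Two

variable {α : Type*}

lemma ap_inv (f : Perm α) (x : α) : f (f⁻¹ x) = x := Equiv.apply_symm_apply f x

/-- a base point of the cycle of `x` -/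
noncomputable def bp (σ : Perm α) (x : α) : α :=
  (Quotient.mk (SameCycle.setoid σ) x).out

lemma bp_same (σ : Perm α) (x : α) : SameCycle σ (bp σ x) x :=
  Quotient.exact (s := SameCycle.setoid σ) (Quotient.out_eq _)

lemma bp_congr {σ : Perm α} {x y : α} (h : SameCycle σ x y) : bp σ x = bp σ y := by
  unfold bp
  congr 1
  exact Quotient.sound (s := SameCycle.setoid σ) h

/-- the exponent with `σ ^ ex x (bp x) = x` -/
noncomputable def ex (σ : Perm α) (x : α) : ℤ := (bp_same σ x).choose

lemma ex_spec (σ : Perm α) (x : α) : (σ ^ ex σ x) (bp σ x) = x := (bp_same σ x).choose_spec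

/-- the reflection of every cycle -/
noncomputable def refl0 (σ : Perm α) (x : α) : α := (σ ^ (-ex σ x)) (bp σ x)

lemma refl0_zpow (σ : Perm α) (x : α) (k : ℤ) :
    refl0 σ ((σ ^ k) (bp σ x)) = (σ ^ (-k)) (bp σ x) := by
  set r := bp σ x with hr
  have h1 : bp σ ((σ ^ k) r) = r := by
    have h2 : SameCycle σ ((σ ^ k) r) x :=
      ((bp_same σ x).symm.trans ⟨k, by rw [hr]⟩).symm
    rw [hr]
    exact bp_congr h2
  have h3 := ex_spec σ ((σ ^ k) r)
  unfold refl0
  rw [h1] at h3 ⊢
  set i := ex σ ((σ ^ k) r)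
  have h4 : (σ ^ (k - i)) r = r := by
    rw [sub_eq_add_neg, add_comm, zpow_add, Perm.mul_apply, ← h3, ← Perm.mul_apply, ← zpow_add,
      neg_add_cancel, zpow_zero, Perm.one_apply]
  have h5 : (σ ^ (-i)) r = (σ ^ (-k)) ((σ ^ (k - i)) r) := by
    rw [← Perm.mul_apply, ← zpow_add]
    congr 2
    ring
  rw [h5, h4]

lemma refl0_invol (σ : Perm α) : Function.Involutive (refl0 σ) := by
  intro x
  have h := refl0_zpow σ x (-ex σ x)
  rw [neg_neg, ex_spec] at h
  exact h

lemma refl0_map (σ : Perm α) (x : α) : σ (refl0 σ (σ x)) = refl0 σ x := by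
  have h := refl0_zpow σ x (ex σ x + 1)
  rw [add_comm (ex σ x) 1, zpow_add, zpow_one, Perm.mul_apply, ex_spec] at h
  rw [h, neg_add, zpow_add, Perm.mul_apply]
  unfold refl0
  rw [zpow_neg_one, ap_inv]

lemma refl0_fix {σ : Perm α} {x : α} (hx : σ x = x) : refl0 σ x = x := by
  have h1 : bp σ x = x := by
    obtain ⟨i, hi⟩ := (bp_same σ x).symm
    rw [← hi]
    exact zpow_apply_eq_self_of_apply_eq_self hx i
  unfold refl0
  rw [h1]
  exact zpow_apply_eq_self_of_apply_eq_self hx _

/-- every permutation is a product of two involutions -/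
theorem two_inv (σ : Perm α) : ∃ a b : Perm α, a * a = 1 ∧ b * b = 1 ∧ σ = a * b ∧
    ∀ x, σ x = x → a x = x ∧ b x = x := by
  set a : Perm α := (refl0_invol σ).toPerm with ha
  have haa : a * a = 1 := by
    ext x
    exact refl0_invol σ x
  refine ⟨a, a * σ, haa, ?_, by rw [← mul_assoc, haa, one_mul], ?_⟩
  · ext x
    change refl0 σ (σ (refl0 σ (σ x))) = x
    rw [refl0_map]
    exact refl0_invol σ x
  · intro x hx
    have h1 : a x = x := refl0_fix hx
    exact ⟨h1, by rw [Perm.mul_apply, hx, h1]⟩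

end Two

/-- an even permutation with two fixed points is a product of two even involutions -/
lemma even_two_inv {n : ℕ} {σ : Perm (Fin n)} (hs : sign σ = 1) {p q : Fin n} (hpq : p ≠ q)
    (hp : σ p = p) (hq : σ q = q) :
    ∃ a b : Perm (Fin n), sign a = 1 ∧ sign b = 1 ∧ a * a = 1 ∧ b * b = 1 ∧ σ = a * b := by
  obtain ⟨a, b, ha, hb, hab, hfix⟩ := two_inv σ
  have hsab : sign a * sign b = 1 := by rw [← Perm.sign_mul, ← hab, hs]
  obtain ⟨hap, hbp⟩ := hfix p hp
  obtain ⟨haq, hbq⟩ := hfix q hq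
  rcases Int.units_eq_one_or (sign a) with h | h
  · refine ⟨a, b, h, ?_, ha, hb, hab⟩
    rwa [h, one_mul] at hsab
  · have hb1 : sign b = -1 := by
      rw [h] at hsab
      rw [neg_mul, one_mul] at hsab
      rw [← hsab, neg_neg]
    have hc1 : swap p q * a = a * swap p q := by
      rw [swap_mul_eq_mul_swap]
      congr 2
      · rw [inv_eq_iff_eq, hap]
      · rw [inv_eq_iff_eq, haq]
    have hc2 : swap p q * b = b * swap p q := by
      rw [swap_mul_eq_mul_swap]
      congr 2
      · rw [inv_eq_iff_eq, hbp]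
      · rw [inv_eq_iff_eq, hbq]
    refine ⟨a * swap p q, swap p q * b, ?_, ?_, ?_, ?_, ?_⟩
    · rw [Perm.sign_mul, sign_swap hpq, h]; rfl
    · rw [Perm.sign_mul, sign_swap hpq, hb1]; rfl
    · calc a * swap p q * (a * swap p q) = a * (swap p q * a) * swap p q := by group
        _ = a * (a * swap p q) * swap p q := by rw [hc1]
        _ = a * a * (swap p q * swap p q) := by group
        _ = 1 := by rw [ha, swap_mul_self, one_mul]
    · calc swap p q * b * (swap p q * b) = swap p q * (b * swap p q) * b := by group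
        _ = swap p q * (swap p q * b) * b := by rw [hc2]
        _ = swap p q * swap p q * (b * b) := by group
        _ = 1 := by rw [hb, swap_mul_self, one_mul]
    · calc σ = a * b := hab
        _ = a * (swap p q * swap p q) * b := by rw [swap_mul_self, mul_one]
        _ = a * swap p q * (swap p q * b) := by group

/-- **Every even permutation of at least five points is a product of three even involutions.** -/
theorem three_inv {n : ℕ} (hn : 5 ≤ n) (y : alternatingGroup (Fin n)) :
    ∃ a b c : alternatingGroup (Fin n), a * a = 1 ∧ b * b = 1 ∧ c * c = 1 ∧ y = a * b * c := by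
  obtain ⟨y, hy⟩ := y
  rw [mem_alternatingGroup] at hy
  -- a factor which creates two fixed points
  have key : ∃ v : Perm (Fin n), sign v = 1 ∧ v * v = 1 ∧
      ∃ p q : Fin n, p ≠ q ∧ (y * v) p = p ∧ (y * v) q = q := by
    by_cases h : ∃ p q : Fin n, p ≠ q ∧ y p = p ∧ y q = q
    · obtain ⟨p, q, hpq, hp, hq⟩ := h
      exact ⟨1, by simp, by simp, p, q, hpq, by simpa using hp, by simpa using hq⟩
    · push Not at h
      obtain ⟨a, ha⟩ : ∃ a, y a ≠ a := by
        by_contra hcon
        push Not at hcon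
        have h0 : (⟨0, by omega⟩ : Fin n) ≠ ⟨1, by omega⟩ := by simp
        exact h _ _ h0 (hcon _) (hcon _)
      have hcard : 1 < ((({a, y a, y⁻¹ a} : Finset (Fin n)))ᶜ).card := by
        rw [Finset.card_compl, Fintype.card_fin]
        have := Finset.card_le_three (a := a) (b := y a) (c := y⁻¹ a)
        omega
      obtain ⟨b1, hb1, b2, hb2, hne⟩ := Finset.one_lt_card.1 hcard
      obtain ⟨b, hb, hyb⟩ : ∃ b, b ∈ (({a, y a, y⁻¹ a} : Finset (Fin n)))ᶜ ∧ y b ≠ b := by
        by_cases h1 : y b1 = b1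
        · exact ⟨b2, hb2, h b1 b2 hne h1⟩
        · exact ⟨b1, hb1, h1⟩
      simp only [Finset.mem_compl, Finset.mem_insert, Finset.mem_singleton, not_or] at hb
      obtain ⟨hba, hbya, hbia⟩ := hb
      have e1 : a ≠ y⁻¹ a := fun h2 => ha (by rw [Perm.eq_inv_iff_eq] at h2; exact h2)
      have e2 : b ≠ y⁻¹ b := fun h2 => hyb (by rw [Perm.eq_inv_iff_eq] at h2; exact h2)
      have e3 : a ≠ y⁻¹ b := fun h2 => hbya (by rw [Perm.eq_inv_iff_eq] at h2; exact h2.symm)
      have e4 : y⁻¹ a ≠ y⁻¹ b := fun h2 => hba ((y⁻¹).injective h2).symm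
      have hnd : [a, y⁻¹ a, b, y⁻¹ b].Nodup := by
        simp only [List.nodup_cons, List.mem_cons, List.not_mem_nil, or_false, not_or,
          not_false_eq_true, List.nodup_nil, and_true]
        exact ⟨⟨e1, Ne.symm hba, e3⟩, ⟨Ne.symm hbia, e4⟩, e2⟩
      have hcomm := (disjoint_swap_swap hnd).commute
      refine ⟨swap a (y⁻¹ a) * swap b (y⁻¹ b), ?_, ?_, a, b, Ne.symm hba, ?_, ?_⟩
      · rw [Perm.sign_mul, sign_swap e1, sign_swap e2]; rfl
      · calc swap a (y⁻¹ a) * swap b (y⁻¹ b) * (swap a (y⁻¹ a) * swap b (y⁻¹ b))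
            = swap a (y⁻¹ a) * (swap b (y⁻¹ b) * swap a (y⁻¹ a)) * swap b (y⁻¹ b) := by group
          _ = swap a (y⁻¹ a) * (swap a (y⁻¹ a) * swap b (y⁻¹ b)) * swap b (y⁻¹ b) := by
              rw [hcomm.eq]
          _ = (swap a (y⁻¹ a) * swap a (y⁻¹ a)) * (swap b (y⁻¹ b) * swap b (y⁻¹ b)) := by group
          _ = 1 := by rw [swap_mul_self, swap_mul_self, one_mul]
      · rw [Perm.mul_apply, Perm.mul_apply, swap_apply_of_ne_of_ne (Ne.symm hba) e3,
          swap_apply_left, ap_inv]
      · rw [Perm.mul_apply, Perm.mul_apply, swap_apply_left,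
          swap_apply_of_ne_of_ne (Ne.symm e3) (Ne.symm e4), ap_inv]
  obtain ⟨v, hv1, hv2, p, q, hpq, hp, hq⟩ := key
  have hs : sign (y * v) = 1 := by rw [Perm.sign_mul, hy, hv1, one_mul]
  obtain ⟨a, b, sa, sb, ha, hb, hab⟩ := even_two_inv hs hpq hp hq
  refine ⟨⟨a, mem_alternatingGroup.2 sa⟩, ⟨b, mem_alternatingGroup.2 sb⟩,
    ⟨v, mem_alternatingGroup.2 hv1⟩, Subtype.ext ha, Subtype.ext hb, Subtype.ext hv2, ?_⟩
  apply Subtype.ext
  change y = a * b * v
  rw [← hab, mul_assoc, hv2, mul_one]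

end Vale.Agent.P318.R2.H402
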